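import Vale.Agent.P354HF.Ks
import Vale.Agent.P354YO.Ob

/-!
The components of the metric in the far chart in terms of the functions of Far.
-/

open scoped ContDiff
open Set Filter Topology

noncomputable section

namespace Vale.Agent.P354HF

open Vale.Agent.P354n (R4)
open Vale.Agent.P354 (Bilin)
open Vale.Agent.P354I (rm rp)
open Vale.Agent.P354R (Del Met)
open Vale.Agent.P354XE Vale.Agent.P354XA Vale.Agent.P354SC
open Vale.Agent.P354SA (Th Tq ps yc ey e0 e1 dv gm)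
open Vale.Agent.P354YI (Oj)
open Vale.Agent.P354YO (Sb tb_ap)

theorem Om_cd (i : Fin 3) : ContDiff ℝ ∞ (Om i) := by
  unfold Om
  fin_cases i <;> simp <;> fun_prop

theorem Lo_cd {M a : ℝ} {p : R4} (h : rd p ≠ 0) (hD : Del M a (rd p) ≠ 0) :
    ContDiffAt ℝ ∞ (Lo M a) p := by
  have r := rd_cd (n := ∞) h
  have o := (Om_cd 2).contDiffAt (x := p)
  unfold Lo
  unfold Del at *
  fun_prop (disch := assumption)

theorem sb_ap {g : Tw} {p : R4} {V U : R4 → R4} (h : Sb g p) (hV : ContDiffAt ℝ ∞ V p)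
    (hU : ContDiffAt ℝ ∞ U p) : ContDiffAt ℝ ∞ (fun x => g x (V x) (U x)) p :=
  ((h.cd.clm_apply hV).clm_apply hU).congr_of_eventuallyEq (h.bl.mono fun _ e => (tb_ap e _ _).symm)

theorem bil_r {B : R4 → R4 → ℝ} (h : Bilin B) (v : R4) (k : Fin 3 → ℝ) (p : R4) :
    B v (Rv k p) = ∑ i, k i * B v (Om i p) := by
  simp only [Rv, Fin.sum_univ_three, h.add_right, h.smul_right]

theorem bil_l {B : R4 → R4 → ℝ} (h : Bilin B) (v : R4) (k : Fin 3 → ℝ) (p : R4) :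
    B (Rv k p) v = ∑ i, k i * B (Om i p) v := by
  simp only [Rv, Fin.sum_univ_three, h.add_left, h.smul_left]

theorem dv_line {f : R4 → ℝ} {x : R4} (h : DifferentiableAt ℝ f x) :
    HasDerivAt (fun t : ℝ => f (x + t • e0)) (dv e0 f x) 0 := by
  have a : HasFDerivAt f (fderiv ℝ f x) (x + (0 : ℝ) • e0) := by simpa using h.hasFDerivAt
  have b := a.comp_hasDerivAt 0 (((hasDerivAt_id (0 : ℝ)).smul_const e0).const_add x)
  rw [one_smul] at b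
  exact b

/-- The derivative in s when the coefficients do not depend on s. -/
theorem dv0_sum {ι : Type} [Fintype ι] {F k' : R4 → ℝ} {k u : ι → R4 → ℝ} {z : R4}
    (hF : ContDiffAt ℝ ∞ F z) (hu : ∀ i, ContDiffAt ℝ ∞ (u i) z)
    (e : ∀ᶠ x in 𝓝 z, F x = ∑ i, k i x * u i x + k' x) (hk : ∀ i x, k i x = k i (0, x.2))
    (hk' : ∀ x, k' x = k' (0, x.2)) : ∀ᶠ x in 𝓝 z, dv e0 F x = ∑ i, k i x * dv e0 (u i) x := by
  filter_upwards [ev_dif hF, eventually_all.2 fun i => ev_dif (hu i), e.eventually_nhds]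
    with x h1 h2 h3
  have s : ∀ t : ℝ, (x + t • e0).2 = x.2 := fun t => by simp [e0]
  refine (dv_line h1).unique (((HasDerivAt.fun_sum fun i _ =>
    (dv_line (h2 i)).const_mul (k i x)).add_const (k' x)).congr_of_eventuallyEq ?_)
  have c : ContinuousAt (fun t : ℝ => x + t • e0) 0 := by fun_prop
  filter_upwards [c.eventually (p := fun y => F y = ∑ i, k i y * u i y + k' y) (by simpa using h3)]
    with t ht
  rw [ht, hk', s, ← hk']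
  simp only [hk _ (x + t • e0), s, ← hk]

/-- The configurations. -/
structure Cf (μ E : ℝ) (n : ℕ) (σ : Bool) where
  q : Par
  (s δ ε : ℝ)
  N : ℕ
  g : Tw
  D : Set R4
  β : Fin 3 → R4 → ℝ
  T : ℝ
  z : R4
  (l e w d : ℝ)
  ha : |q.a| < q.M
  hM : q.M ≤ μ
  hr : 4 * μ + 1 ≤ z.2.1
  hE : ‖z.2.2‖ ≤ E
  ε1 : ε ≤ 1
  ee : ε ≤ e
  hN : n + 2 ≤ N
  op : IsOpen D
  met : Met g D
  mem : Tq q σ T z ∈ D
  far : Far q.M q.a s δ ε N (pb q.lin g) β (Th q.M q.a σ T z)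
  l1 : 1 ≤ l
  lw : l ^ n * uw q.M q.a (Th q.M q.a σ T z) ^ (-s) ≤ w
  w1 : w ≤ 1
  wdd : wt q.M q.a δ (Th q.M q.a σ T z) + w ≤ d

namespace Cf

variable {μ E : ℝ} {n : ℕ} {σ : Bool} (j : Cf μ E n σ)

def Θ : R4 → R4 := Th j.q.M j.q.a σ j.T
def H : Tw := pb j.q.lin j.g
def G : Tw := pb (Tq j.q σ j.T) j.g
def b : Fin 2 → R4 → ℝ := bz j.q σ j.T j.β
def u : ℝ := uw j.q.M j.q.a (j.Θ j.z) ^ (-j.s)
def k : Fin 2 → Fin 3 → R4 → ℝ := kz j.q.M j.q.a σ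
def la (i : Fin 3) (x : R4) : ℝ :=
  j.H x (Lo j.q.M j.q.a x) (Om i x) - gin j.q.M j.q.a x (Lo j.q.M j.q.a x) (Om i x)
def ft : R4 → ℝ := ftt j.q.M j.q.a j.H j.β
def ta (i : Fin 3) (x : R4) : ℝ :=
  (j.H x (Nf j.β x) (Om i x) - gin j.q.M j.q.a x eT (Om i x)) / rd x
def aa (i : Fin 3 × Fin 3) (x : R4) : ℝ :=
  (j.H x (Om i.1 x) (Om i.2 x) - gin j.q.M j.q.a x (Om i.1 x) (Om i.2 x)) / rd x ^ 2

theorem adm : Adm μ E (fun j : Cf μ E n σ => j.q.M) (fun j => j.q.a) z := ⟨ha, hM, hr, hE⟩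

theorem rpl : rp j.q.M j.q.a < j.z.2.1 := adm.rp_lt j
theorem rdΘ : rd (j.Θ j.z) = j.z.2.1 := rd_Th (adm.r0 j).le
theorem Θcd : ContDiffAt ℝ ∞ j.Θ j.z := Th_cd j.ha j.rpl

theorem sbH : Sb j.H (j.Θ j.z) :=
  Sb.pull ⟨mem_of_superset (j.op.mem_nhds j.mem) fun _ hy => met_bil j.met hy,
    fun v w => (j.met.smooth v w).contDiffAt (j.op.mem_nhds j.mem)⟩ (linL j.q).contDiff.contDiffAt

theorem sbK : Sb (gin j.q.M j.q.a) (j.Θ j.z) := P354YO.sb_gin (by rw [rdΘ]; exact adm.r0 j)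
theorem Lcd : ContDiffAt ℝ ∞ (Lo j.q.M j.q.a) (j.Θ j.z) :=
  Lo_cd (rd_ne j.ha j.rpl) (Del_ne j.ha j.rpl)
theorem rcd : ContDiffAt ℝ ∞ rd (j.Θ j.z) := rd_cd (rd_ne j.ha j.rpl)

theorem vcd (i : Fin 5) : ContDiffAt ℝ ∞ (vf j.q.M j.q.a i) (j.Θ j.z) := by
  fin_cases i
  exacts [contDiffAt_const, j.rcd.smul j.Lcd, (Om_cd 0).contDiffAt, (Om_cd 1).contDiffAt,
    (Om_cd 2).contDiffAt]

theorem Ncd : ContDiffAt ℝ ∞ (Nf j.β) (j.Θ j.z) :=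
  contDiffAt_const.add (ContDiffAt.sum fun i _ => (j.far.smooth i).smul (Om_cd i).contDiffAt)

theorem la_cd (i : Fin 3) : ContDiffAt ℝ ∞ (j.la i) (j.Θ j.z) :=
  (sb_ap j.sbH j.Lcd (Om_cd i).contDiffAt).sub (sb_ap j.sbK j.Lcd (Om_cd i).contDiffAt)
theorem ft_cd : ContDiffAt ℝ ∞ j.ft (j.Θ j.z) :=
  (sb_ap j.sbH j.Ncd j.Ncd).sub (j.sbK.sm _ _)
theorem ta_cd (i : Fin 3) : ContDiffAt ℝ ∞ (j.ta i) (j.Θ j.z) :=
  ((sb_ap j.sbH j.Ncd (Om_cd i).contDiffAt).sub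
    (sb_ap j.sbK contDiffAt_const (Om_cd i).contDiffAt)).div j.rcd (rd_ne j.ha j.rpl)
theorem aa_cd (i : Fin 3 × Fin 3) : ContDiffAt ℝ ∞ (j.aa i) (j.Θ j.z) :=
  ((sb_ap j.sbH (Om_cd _).contDiffAt (Om_cd _).contDiffAt).sub (sb_ap j.sbK (Om_cd _).contDiffAt
    (Om_cd _).contDiffAt)).div (j.rcd.pow 2) (pow_ne_zero 2 (rd_ne j.ha j.rpl))

theorem ev_r : ∀ᶠ x in 𝓝 j.z, rp j.q.M j.q.a < x.2.1 :=
  continuous_snd.fst.continuousAt.eventually_const_lt j.rpl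

/-- The chain rule. -/
theorem ch {F : R4 → ℝ} (h : ContDiffAt ℝ ∞ F (j.Θ j.z)) : ∀ᶠ x in 𝓝 j.z, rp j.q.M j.q.a < x.2.1 ∧
    ∀ v, dv v (fun x => F (j.Θ x)) x = fderiv ℝ F (j.Θ x) (fderiv ℝ j.Θ x v) :=
  j.ev_r.and ((P354YI.fd_comp h j.Θcd).mono fun _ e v => DFunLike.congr_fun e v)

/-- The components near z. -/
theorem cmp : ∀ᶠ x in 𝓝 j.z, j.G x e1 e1 = 0 ∧
    (∀ c, j.G x e1 (ey c) = ∑ i, j.k c i x * j.la i (j.Θ x) + j.q.a * chi c x.2.2) ∧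
    j.G x e1 (Nv j.b x) + 1 = ∑ c, j.b c x * j.G x e1 (ey c) ∧
    φN j.G j.b x = j.ft (j.Θ x) + mu j.q.M j.q.a x ∧
    (∀ c, j.G x (Nv j.b x) (ey c) = ∑ i, j.k c i x * x.2.1 * j.ta i (j.Θ x) +
      -(mu j.q.M j.q.a x * (j.q.a * chi c x.2.2))) ∧
    ∀ c d, gm j.G c d x = ∑ i : Fin 3 × Fin 3, j.k c i.1 x * j.k d i.2 x * (x.2.1 * x.2.1) *
      j.aa i (j.Θ x) + (Sz j.q.a x * g0 c d x.2.2 + j.q.a * chi c x.2.2 * (j.q.a * chi d x.2.2) *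
        (1 + mu j.q.M j.q.a x)) := by
  filter_upwards [j.ev_r, j.Θcd.continuousAt.eventually j.sbH.bl,
    j.Θcd.continuousAt.eventually j.far.gauge] with x r B ga
  have h := j.ha
  have r0 := r_pos h r
  have e : ∀ v w, j.G x v w = j.H (j.Θ x) (fderiv ℝ j.Θ x v) (fderiv ℝ j.Θ x w) := fun v w => by
    have : fderiv ℝ (Tq j.q σ j.T) x = _ := ((linL j.q).hasFDerivAt.comp x
      ((Th_cd (c := j.T) (σ := σ) h r).differentiableAt (by simp)).hasFDerivAt).fderiv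
    rw [G, pb, this, H, pb_lin]
    rfl
  have K := gin_bil j.q.M j.q.a (j.Θ x)
  have N : fderiv ℝ j.Θ x (Nv j.b x) = Nf j.β (j.Θ x) := Th_Nv h r _ fun _ => rfl
  have t0 : fderiv ℝ j.Θ x e0 = -eT := Th_e0 h r
  have t1 : fderiv ℝ j.Θ x e1 = Lo _ _ (j.Θ x) := Th_e1 h r
  have t2 : ∀ c, fderiv ℝ j.Θ x (ey c) = Rv (fun i => j.k c i x) (j.Θ x) := Th_ey h r
  have rx : rd (j.Θ x) = x.2.1 := rd_Th r0.le
  refine ⟨by rw [e, t1]; exact ga.1, fun c => ?_, ?_, ?_, fun c => ?_, fun c d => ?_⟩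
  · have := (bil_r K (Lo _ _ (j.Θ x)) (fun i => j.k c i x) (j.Θ x)).symm.trans (gin_LY h r c)
    rw [e, t1, t2, bil_r B, ← this, ← Finset.sum_add_distrib]
    exact Finset.sum_congr rfl fun i _ => by rw [la]; ring
  · have : Nv j.b x = -e0 + (j.b 0 x • ey 0 + j.b 1 x • ey 1) := by simp [Nv, e0, ey]
    have t : j.H (j.Θ x) (Lo j.q.M j.q.a (j.Θ x)) eT = -1 := ga.2.trans (gin_LT h r)
    simp only [e, this, map_add, map_smul, map_neg, t0, t1, B.add_right, B.smul_right, neg_neg, t,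
      Fin.sum_univ_two]
    ring
  · have t : gin j.q.M j.q.a (j.Θ x) eT eT = _ := gin_TT h r
    rw [φN, e, N, ft, ftt, t]
    ring
  · have := (bil_r K _ (fun i => j.k c i x) (j.Θ x)).symm.trans (gin_TY h r c)
    rw [e, N, t2, bil_r B, ← this, ← Finset.sum_add_distrib]
    exact Finset.sum_congr rfl fun i _ => by
      rw [ta, rx]
      field_simp
      ring
  · have t : gin j.q.M j.q.a (j.Θ x) (Rv (fun i => j.k c i x) (j.Θ x))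
      (Rv (fun i => j.k d i x) (j.Θ x)) = _ := gin_YY h r c d
    rw [gm, e, t2, t2, ← t, bil_l B, bil_l K]
    simp only [bil_r B, bil_r K, Fintype.sum_prod_type, Finset.mul_sum, ← Finset.sum_add_distrib]
    refine Finset.sum_congr rfl fun i _ => Finset.sum_congr rfl fun i' _ => ?_
    rw [aa, rx]
    field_simp
    ring

theorem num : 0 ≤ j.ε ∧ 0 ≤ j.e ∧ 0 ≤ j.u ∧ j.u ≤ j.w ∧ j.l ^ n * j.u ≤ j.w ∧ 0 ≤ j.w ∧
    0 ≤ wt j.q.M j.q.a j.δ (j.Θ j.z) ∧ 1 ≤ j.z.2.1 ∧ 0 < j.z.2.1⁻¹ := by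
  have a := (abs_nonneg _).trans (j.far.la 0 [] (Nat.zero_le _)).1
  have b : 0 ≤ j.u := Real.rpow_nonneg (Real.sqrt_nonneg _) _
  have c := (le_mul_of_one_le_left b (one_le_pow₀ (n := n) j.l1)).trans j.lw
  exact ⟨a, a.trans j.ee, b, c, j.lw, b.trans c, add_nonneg (Real.rpow_nonneg (Real.sqrt_nonneg _) _)
    (Real.rpow_nonneg (rd_nonneg _) _), adm.r1 j, inv_pos.2 (adm.r0 j)⟩

variable {F : Cf μ E n σ → R4 → ℝ} {c c' ν : Cf μ E n σ → ℝ}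

theorem gainW (h1 : ∀ j, W (vf j.q.M j.q.a) n (F j) (j.Θ j.z) (c j))
    (h2 : ∀ j, W (vf j.q.M j.q.a) n (Dv (vf j.q.M j.q.a 0) (F j)) (j.Θ j.z) (c' j))
    (h0 : ∀ j, 0 ≤ ν j) (hw : ∀ j, c j + j.l ^ n * c' j ≤ 2 * ν j) :
    Oc n l z (fun j x => F j (j.Θ x)) ν := by
  have := oj_gain (A := fun j : Cf μ E n σ => d3L j.l 1) (d3L 0 1) (ContinuousLinearMap.fst ℝ ℝ _)
    e0 l1 (fun j v => by simp [d3L_ap, e0]) n (adm.o_Th σ h1)
    ((adm.o_Th σ h2).neg.congr fun j => ?_)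
  · refine (this.wt h0 hw).congr' fun j ξ => ?_
    have : ds j.z (0 + d3L j.l 1 ξ) = d3 j.l j.z ξ := by simp [ds, d3, d3L_ap]
    exact congrArg (fun y => F j (j.Θ y)) this.symm
  · have s := P354YI.at_comp (h1 j).sm j.Θcd
    filter_upwards [P354YI.fd_comp (x := 0) (by rw [ds_zero]; exact s) (ds_cd j.z).contDiffAt,
      ((ds_cd j.z).continuous.continuousAt (x := 0)).eventually
        (by rw [ds_zero]; exact j.ch (h1 j).sm)] with ξ e e'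
    have t : fderiv ℝ j.Θ (ds j.z ξ) e0 = -eT := Th_e0 j.ha e'.1
    have t' : dL j.z.2.1 e0 = e0 := by simp [e0]
    have := e'.2 e0
    rw [t, map_neg] at this
    exact (DFunLike.congr_fun e e0).trans (by
      rw [(ds_fd _ _).fderiv, ContinuousLinearMap.comp_apply, t']
      exact this)

theorem gain (s : ∀ j, ContDiffAt ℝ ∞ (F j) (j.Θ j.z))
    (h : ∀ j, Wb j.q.M j.q.a j.N (F j) (j.Θ j.z) (c j) (c' j)) (h0 : ∀ j, 0 ≤ ν j)
    (hw : ∀ j, c j + j.l ^ n * c' j ≤ 2 * ν j) : Oc n l z (fun j x => F j (j.Θ x)) ν :=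
  gainW (fun j => (Wb.W j.vcd (s j) (h j)).1.down (by linarith [j.hN]))
    (fun j => (Wb.W j.vcd (s j) (h j)).2.down (by linarith [j.hN])) h0 hw

theorem gain0 (s : ∀ j, ContDiffAt ℝ ∞ (F j) (j.Θ j.z))
    (h : ∀ j, Wb j.q.M j.q.a j.N (F j) (j.Θ j.z) (c j) (j.ε * j.u)) :
    Oc n l z (fun j => dv e0 fun x => F j (j.Θ x)) w := by
  have a : ∀ j : Cf μ E n σ, W _ (n + 1) _ _ _ := fun j =>
    (Wb.W j.vcd (s j) (h j)).2.down (by linarith [j.hN])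
  refine (gainW (fun j => (a j).pred) (fun j => (a j).der 0) (fun j => j.num.2.2.2.2.2.1)
    fun j => ?_).neg.congr fun j => (j.ch (s j)).mono fun x e => ?_
  · obtain ⟨n1, -, n3, n4, n5, n6, -⟩ := j.num
    have := j.ε1
    nlinarith [mul_nonneg (pow_nonneg (zero_le_one.trans j.l1) n) n3]
  · have t : fderiv ℝ j.Θ x e0 = -eT := Th_e0 j.ha e.1
    rw [e.2, t, map_neg]
    rfl

end Cf

end Vale.Agent.P354HF
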