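import Vale.Agent.P354HF.Cf

/-!
HYF: the bounds in the far chart from the estimates Far.
-/

open scoped ContDiff
open Set Filter Topology

noncomputable section

namespace Vale.Agent.P354HF

open Vale.Agent.P354n (R4)
open Vale.Agent.P354 (Bilin)
open Vale.Agent.P354I (rm rp)
open Vale.Agent.P354R (Del Met)
open Vale.Agent.P354XE Vale.Agent.P354XA Vale.Agent.P354SC
open Vale.Agent.P354SA (Th Tq ps yc ey e0 e1 dv gm)
open Vale.Agent.P354YI (Oj)
open Vale.Agent.P354YO (Sb tb_ap)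

namespace Cf

variable {μ E : ℝ} {n : ℕ} {σ : Bool} {ν : Cf μ E n σ → ℝ}

theorem ev {f : Cf μ E n σ → R4 → ℝ} (h : Oc n l z f ν) :
    ∀ᶠ K in atTop, ∀ j, C3 n j.l (f j) j.z (K * ν j) := by
  obtain ⟨C, -, hC⟩ := h.c3 adm l1
  exact (eventually_ge_atTop C).mono fun K e j =>
    ⟨(hC j).1, (hC j).2.mono le_rfl (mul_le_mul_of_nonneg_right e (Oj.nn h j))⟩

theorem o_k (c : Fin 2) (i : Fin 3) : Oc n l z (fun j : Cf μ E n σ => j.k c i) 1 := oc_kz adm σ c i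

theorem o_be (c : Fin 2) : Oc n l z (fun j : Cf μ E n σ => j.b c) fun j => j.e * j.w := by
  have p : ∀ j : Cf μ E n σ, 0 ≤ j.e * j.w := fun j => mul_nonneg j.num.2.1 j.num.2.2.2.2.2.1
  refine Oc.sum p fun i => ((gain (fun j => j.far.smooth i) (fun j => (j.far.shift i).1) p
    fun j => ?_).mull (o_k c i)).mull (oc_fy adm (F := fun y => qq y ^ 2 / 4)
      ((qq_cd.pow 2).div_const _))
  obtain ⟨n1, n2, n3, n4, n5, n6, -⟩ := j.num
  have := j.ee
  show j.ε * j.u + j.l ^ n * (j.ε * j.u) ≤ _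
  nlinarith [mul_nonneg (pow_nonneg (zero_le_one.trans j.l1) n) n3]

theorem two (j : Cf μ E n σ) : j.ε + j.l ^ n * (j.ε * j.u) ≤ 2 * j.e ∧
    j.ε + j.l ^ n * (j.ε * j.u) ≤ 2 * 1 := by
  obtain ⟨n1, n2, n3, n4, n5, n6, -⟩ := j.num
  have := j.ee
  have := j.ε1
  have := j.w1
  constructor <;> nlinarith

theorem o_ze (c : Fin 2) : Oc n l z (fun (j : Cf μ E n σ) x => j.G x e1 (ey c)) 1 :=
  ((Oc.sum (fun _ => zero_le_one) fun i => (o_k c i).mull (gain (fun j => j.la_cd i)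
    (fun j => j.far.la i) (fun _ => zero_le_one) fun j => j.two.2)).add (oc_chi adm c)).congr
    fun j => j.cmp.mono fun _ e => e.2.1 c

theorem o_ft (i : Fin 5) (hi : i ≠ 0) : Oc n l z
    (fun (j : Cf μ E n σ) x => Dv (vf j.q.M j.q.a i) j.ft (j.Θ x))
    fun j => j.z.2.1⁻¹ + j.e * (j.d + j.z.2.1 * j.w) := by
  refine gain (fun j => sm_Dv (j.vcd i) j.ft_cd) (fun j => j.far.tt' i hi) (fun j => ?_) fun j => ?_
  all_goals obtain ⟨n1, n2, n3, n4, n5, n6, n7, n8, n9⟩ := j.num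
  · have : 0 ≤ j.d := (add_nonneg n7 n6).trans j.wdd
    positivity
  · have h1 := j.ee
    have := j.l1
    have h2 : wt _ _ _ (j.Θ j.z) + _ ≤ _ := j.wdd
    have h3 := mul_le_mul_of_nonneg_left n4 (zero_le_one.trans n8)
    have h4 := mul_le_mul_of_nonneg_left n5 (zero_le_one.trans n8)
    have h5 : 0 ≤ j.z.2.1 * j.w := by positivity
    show j.ε * (wt _ _ _ (j.Θ j.z) + rd (j.Θ j.z) * j.u) + j.l ^ n * (j.ε * (rd (j.Θ j.z) * j.u)) ≤ _
    rw [rdΘ]
    calc _ = j.ε * (wt _ _ _ (j.Θ j.z) + j.z.2.1 * j.u + j.z.2.1 * (j.l ^ n * j.u)) := by ring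
      _ ≤ j.e * (2 * (j.d + j.z.2.1 * j.w)) := mul_le_mul h1 (by linarith) (by positivity) n2
      _ ≤ _ := by linarith

theorem φ_ev (j : Cf μ E n σ) : ∀ᶠ x in 𝓝 j.z, rp j.q.M j.q.a < x.2.1 ∧ ∀ v, dv v (φN j.G j.b) x =
    fderiv ℝ j.ft (j.Θ x) (fderiv ℝ j.Θ x v) + dv v (mu j.q.M j.q.a) x := by
  filter_upwards [EventuallyEq.fderiv (𝕜 := ℝ) (j.cmp.mono fun _ e => e.2.2.2.1), j.ch j.ft_cd,
    ev_dif (P354YI.at_comp j.ft_cd j.Θcd), ev_dif ((oc_mu (n := 0) adm).sm adm l1 j)]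
    with x h1 h2 h3 h4
  refine ⟨h2.1, fun v => ?_⟩
  rw [← h2.2, dv, h1, fderiv_fun_add h3 h4]
  rfl

theorem main (μ E : ℝ) (n : ℕ) (σ : Bool) : ∀ᶠ K in atTop, ∀ j : Cf μ E n σ,
    Hy n K j.e j.w j.d j.l j.G j.b j.z := by
  have nm := fun j : Cf μ E n σ => j.num
  have d0 : ∀ j : Cf μ E n σ, 0 ≤ j.d := fun j =>
    (add_nonneg (nm j).2.2.2.2.2.2.1 (nm j).2.2.2.2.2.1).trans j.wdd
  have pos : ∀ j : Cf μ E n σ, 0 ≤ j.e ∧ 0 ≤ j.w ∧ 0 ≤ j.z.2.1 ∧ 0 ≤ j.z.2.1⁻¹ := fun j =>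
    ⟨(nm j).2.1, (nm j).2.2.2.2.2.1, (adm.r0 j).le, (nm j).2.2.2.2.2.2.2.2.le⟩
  have mu1 : ∀ {m}, Oc m l z (fun j : Cf μ E n σ => mu j.q.M j.q.a) 1 := (oc_mu adm).up adm.ri1
  have A : Oc n l z (fun (j : Cf μ E n σ) x => j.G x e1 e1) fun j => j.z.2.1⁻¹ ^ 3 :=
    (oc_zero fun j => pow_nonneg (pos j).2.2.2 3).congr fun j => j.cmp.mono fun _ e => e.1
  have X : Oc n l z (fun (j : Cf μ E n σ) x => j.G x e1 (Nv j.b x) + 1)
      fun j => j.z.2.1⁻¹ + j.e * j.w :=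
    ((Oc.sum (Oj.nn (o_be 0)) fun c => (o_be c).mull (o_ze c)).up fun j =>
      le_add_of_nonneg_left (pos j).2.2.2).congr fun j => j.cmp.mono fun _ e => e.2.2.1
  have P : Oc n l z (fun j : Cf μ E n σ => φN j.G j.b)
      fun j => j.z.2.1⁻¹ + j.e * (1 + j.z.2.1 * j.w) := by
    have p : ∀ j : Cf μ E n σ, 0 ≤ j.e * (1 + j.z.2.1 * j.w) := fun j => by
      obtain ⟨a, b, c, -⟩ := pos j
      positivity
    refine ((gain ft_cd (fun j => j.far.tt) (fun j => add_nonneg (pos j).2.2.2 (p j))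
      fun j => ?_).add ((oc_mu adm).up fun j => le_add_of_nonneg_right (p j))).congr
      fun j => j.cmp.mono fun _ e => e.2.2.2.1
    obtain ⟨n1, n2, n3, n4, n5, n6, n7, n8, n9⟩ := nm j
    have := j.l1
    have h3 := mul_le_mul_of_nonneg_left n4 (zero_le_one.trans n8)
    have h4 := mul_le_mul_of_nonneg_left n5 (zero_le_one.trans n8)
    show j.ε * (1 + rd (j.Θ j.z) * j.u) + j.l ^ n * (j.ε * (rd (j.Θ j.z) * j.u)) ≤ _
    rw [rdΘ]
    calc _ = j.ε * (1 + j.z.2.1 * j.u + j.z.2.1 * (j.l ^ n * j.u)) := by ring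
      _ ≤ j.e * (2 * (1 + j.z.2.1 * j.w)) := mul_le_mul j.ee (by linarith) (by positivity) n2
      _ ≤ _ := by linarith
  have m1 : ∀ j : Cf μ E n σ, j.z.2.1⁻¹ ≤ j.z.2.1⁻¹ + j.e * (j.d + j.z.2.1 * j.w) := fun j => by
    obtain ⟨a, b, c, -⟩ := pos j
    have := d0 j
    exact le_add_of_nonneg_right (by positivity)
  have P1 : Oc n l z (fun (j : Cf μ E n σ) x => x.2.1 * dv e1 (φN j.G j.b) x) _ :=
    ((o_ft 1 (by decide)).add (((oc_mu adm).dr adm l1).up m1)).congr fun j => j.φ_ev.mono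
      fun x e => by
        have t : fderiv ℝ j.Θ x e1 = _ := Th_e1 j.ha e.1
        have rx : rd (j.Θ x) = x.2.1 := rd_Th (r_pos j.ha e.1).le
        rw [e.2, t, mul_add, ← smul_eq_mul, ← map_smul, ← rx]
        rfl
  have P2 : ∀ c, Oc n l z (fun j : Cf μ E n σ => dv (ey c) (φN j.G j.b)) _ := fun c =>
    ((Oc.sum (Oj.nn P1) fun i => (o_k c i).mulr (o_ft i.succ.succ (Fin.succ_ne_zero _))).add
      (((oc_mu adm).dy adm l1 c).up m1)).congr fun j => j.φ_ev.mono fun x e => by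
        have t : fderiv ℝ j.Θ x (ey c) = ∑ i, j.k c i x • Om i (j.Θ x) := Th_ey j.ha e.1 c
        rw [e.2, t, map_sum]
        congr 1
        refine Finset.sum_congr rfl fun i _ => ?_
        rw [map_smul]
        fin_cases i <;> rfl
  have T0 : ∀ i, Oc n l z (fun (j : Cf μ E n σ) x => j.ta i (j.Θ x)) fun j => j.e * j.d := fun i =>
    gain (fun j => j.ta_cd i) (fun j => j.far.ta i) (fun j => mul_nonneg (pos j).1 (d0 j))
      fun j => by
        obtain ⟨n1, n2, n3, n4, n5, n6, n7, -⟩ := nm j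
        have h2 : wt _ _ _ (j.Θ j.z) + _ ≤ _ := j.wdd
        show j.ε * wt _ _ _ (j.Θ j.z) + j.l ^ n * (j.ε * j.u) ≤ _
        calc _ = j.ε * (wt _ _ _ (j.Θ j.z) + j.l ^ n * j.u) := by ring
          _ ≤ j.e * (2 * j.d) := mul_le_mul j.ee (by linarith) (add_nonneg n7
              (mul_nonneg (pow_nonneg (zero_le_one.trans j.l1) n) n3)) n2
          _ = _ := by ring
  have kr : ∀ c i, Oc n l z (fun (j : Cf μ E n σ) x => j.k c i x * x.2.1) fun j => j.z.2.1 :=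
    fun c i => (o_k c i).mulr (oc_r adm)
  have T1 : ∀ c, Oc n l z (fun (j : Cf μ E n σ) x => j.G x (Nv j.b x) (ey c))
      fun j => 1 + j.e * j.d * j.z.2.1 := fun c => by
    have p : ∀ j : Cf μ E n σ, 0 ≤ j.e * j.d * j.z.2.1 := fun j =>
      mul_nonneg (mul_nonneg (pos j).1 (d0 j)) (pos j).2.2.1
    exact ((Oc.sum (fun j => add_nonneg zero_le_one (p j)) fun i => ((kr c i).mul (T0 i)).up
      fun j => (mul_comm _ _).le.trans (le_add_of_nonneg_left zero_le_one)).add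
      ((mu1.mull (oc_chi adm c)).neg.up fun j => le_add_of_nonneg_right (p j))).congr
      fun j => j.cmp.mono fun _ e => e.2.2.2.2.1 c
  have T2 : ∀ c, Oc n l z (fun j : Cf μ E n σ => dv e0 fun x => j.G x (Nv j.b x) (ey c))
      fun j => 1 + j.z.2.1 * j.w := fun c =>
    (Oc.sum (fun j => add_nonneg zero_le_one (mul_nonneg (pos j).2.2.1 (pos j).2.1)) fun i =>
      ((kr c i).mul (gain0 (fun j => j.ta_cd i) fun j => j.far.ta i)).up
        fun j => le_add_of_nonneg_left zero_le_one).congr fun j => dv0_sum ((T1 c).sm adm l1 j)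
      (fun i => (T0 i).sm adm l1 j) (j.cmp.mono fun _ e => e.2.2.2.2.1 c) (fun _ _ => rfl)
      fun _ => rfl
  have kk : ∀ c d (i : Fin 3 × Fin 3), Oc n l z (fun (j : Cf μ E n σ) x => j.k c i.1 x * j.k d i.2 x *
      (x.2.1 * x.2.1)) fun j => j.z.2.1 ^ 2 := fun c d i =>
    (((o_k c _).mull (o_k d _)).mulr ((oc_r adm).mul (oc_r adm))).up fun j => (sq _).ge
  have a1 : ∀ i, Oc n l z (fun (j : Cf μ E n σ) x => j.aa i (j.Θ x)) 1 := fun i =>
    gain (fun j => j.aa_cd i) (fun j => j.far.aa i.1 i.2) (fun _ => zero_le_one) fun j => j.two.2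
  have a2 : ∀ i, Oc n l z (fun (j : Cf μ E n σ) x => j.aa i (j.Θ x)) e := fun i =>
    gain (fun j => j.aa_cd i) (fun j => j.far.aa i.1 i.2) (fun j => (pos j).1) fun j => j.two.1
  have cc := fun c d => ((oc_chi (n := n) (l := l) (adm (μ := μ) (E := E) (n := n) (σ := σ)) c).mull
    (oc_chi adm d)).mull ((oc_cst 1).add mu1)
  have G1 : ∀ c d, Oc n l z (fun j : Cf μ E n σ => gm j.G c d) fun j => j.z.2.1 ^ 2 := fun c d =>
    ((Oc.sum (fun j => sq_nonneg _) fun i => (kk c d i).mull (a1 i)).add (((oc_Sz adm).mull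
      (oc_g0 adm c d)).add ((cc c d).up fun j => one_le_pow₀ (adm.r1 j)))).congr
      fun j => j.cmp.mono fun _ e => e.2.2.2.2.2 c d
  have G2 : ∀ c d, Oc n l z (fun j : Cf μ E n σ => dv e0 (gm j.G c d))
      fun j => j.z.2.1 ^ 2 * (j.z.2.1⁻¹ + j.w) := fun c d =>
    (Oc.sum (fun j => mul_nonneg (sq_nonneg _) (add_nonneg (pos j).2.2.2 (pos j).2.1)) fun i =>
      ((kk c d i).mul (gain0 (fun j => j.aa_cd i) fun j => j.far.aa i.1 i.2)).up fun j =>
        mul_le_mul_of_nonneg_left (le_add_of_nonneg_left (pos j).2.2.2) (sq_nonneg _)).congr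
      fun j => dv0_sum ((G1 c d).sm adm l1 j) (fun i => (a1 i).sm adm l1 j)
        (j.cmp.mono fun _ e => e.2.2.2.2.2 c d) (fun _ _ => rfl) fun _ => rfl
  have G3 : ∀ c d, Oc n l z (fun (j : Cf μ E n σ) x => gm j.G c d x - x.2.1 ^ 2 * g0 c d x.2.2)
      fun j => j.z.2.1 ^ 2 * (j.z.2.1⁻¹ + j.e) := fun c d =>
    ((Oc.sum (fun j => mul_nonneg (sq_nonneg _) (add_nonneg (pos j).2.2.2 (pos j).1)) fun i =>
      ((kk c d i).mul (a2 i)).up fun j => mul_le_mul_of_nonneg_left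
        (le_add_of_nonneg_left (pos j).2.2.2) (sq_nonneg _)).add
      ((((oc_ct adm).mull (oc_g0 adm c d)).add (cc c d)).up fun j => by
        have := adm.r1 j
        have h := mul_nonneg (sq_nonneg j.z.2.1) (pos j).1
        rw [mul_add, sq, mul_inv_cancel_right₀ (adm.r0 j).ne', ← sq]
        exact this.trans (le_add_of_nonneg_right h))).congr fun j => j.cmp.mono fun _ e => by
      rw [e.2.2.2.2.2 c d, Sz]
      ring
  filter_upwards [eventually_all.2 fun c => ev (o_be c), ev A, ev X,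
    eventually_all.2 fun c => ev (o_ze c), ev P, ev P1, eventually_all.2 fun c => ev (P2 c),
    eventually_all.2 fun c => ev (T1 c), eventually_all.2 fun c => ev (T2 c),
    eventually_all.2 fun c => eventually_all.2 fun d => ev (G1 c d),
    eventually_all.2 fun c => eventually_all.2 fun d => ev (G2 c d),
    eventually_all.2 fun c => eventually_all.2 fun d => ev (G3 c d)]
    with K h1 h2 h3 h4 h5 h6 h7 h8 h9 h10 h11 h12 j
  exact ⟨(h1 · j), h2 j, h3 j, fun c => by simpa using h4 c j, h5 j, h6 j, (h7 · j), (h8 · j),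
    (h9 · j), (h10 · · j), (h11 · · j), fun c d => by simpa [d3_zero] using (h12 c d j).2.zero⟩

end Cf

/-- **HYF**. -/
theorem hyf : HYF := fun μ E n =>
  (eventually_all.2 (Cf.main μ E n)).exists.imp fun _ h q s δ ε N g D β σ T z l e w d h1 h2 h3 h4 h5
    h6 h7 h8 h9 h10 h11 h12 h13 h14 h15 => h σ ⟨q, s, δ, ε, N, g, D, β, T, z, l, e, w, d, h1, h2, h3,
      h4, h5, h6, h7, h8, h9, h10, h11, h12, h13, h14, h15⟩

end Vale.Agent.P354HF
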