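import Vale.Agent.P354SC.Defs

/-!
The components of the Kerr metric in the far chart, and their classes.
-/

open scoped ContDiff
open Set Filter Topology

noncomputable section

namespace Vale.Agent.P354HF

open Vale.Agent.P354n (R4)
open Vale.Agent.P354I (rm rp Sg rnd)
open Vale.Agent.P354R (Del)
open Vale.Agent.P354E (sg sg_sq)
open Vale.Agent.P354XE Vale.Agent.P354XA Vale.Agent.P354SC
open Vale.Agent.P354SA (Th ps yc ey e0 e1 dv)
open Vale.Agent.P354YI (Oj)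
open Real (cos sin)

/-- The form sin^2 θ dφ on the coordinate fields, cos^2 θ, the function Sigma, and 2 M r / Sigma. -/
def chi (b : Fin 2) (y : ℝ × ℝ) : ℝ := ![-4 * y.2 / qq y ^ 2, 4 * y.1 / qq y ^ 2] b
def ct (y : ℝ × ℝ) : ℝ := ((1 - y.1 ^ 2 - y.2 ^ 2) / qq y) ^ 2
def Sz (a : ℝ) (z : R4) : ℝ := z.2.1 ^ 2 + a ^ 2 * ct z.2.2
def mu (M a : ℝ) (z : R4) : ℝ := 2 * M * z.2.1 / Sz a z

/-- A rotation field, and the images of the angular coordinate fields. -/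
def Rv (k : Fin 3 → ℝ) (p : R4) : R4 := ∑ i, k i • Om i p
def kz (M a : ℝ) (σ : Bool) (b : Fin 2) (i : Fin 3) (z : R4) : ℝ := kc σ (ps M a z.2.1) z.2.2 b i
def Yv (M a : ℝ) (σ : Bool) (c : ℝ) (b : Fin 2) (z : R4) : R4 :=
  Rv (fun i => kz M a σ b i z) (Th M a σ c z)

/-- Kerr in the chart. -/
def hK (M a : ℝ) (σ : Bool) (c : ℝ) : Tw := pb (Th M a σ c) (gin M a)

variable {M a c : ℝ} {σ : Bool} {z p : R4}

theorem Rv_eq (k : Fin 3 → ℝ) (p : R4) : Rv k p = (0, k 1 * p.2.2.2 - k 2 * p.2.2.1,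
    k 2 * p.2.1 - k 0 * p.2.2.2, k 0 * p.2.2.1 - k 1 * p.2.1) := by
  ext <;> simp [Rv, Om, Fin.sum_univ_three] <;> ring

theorem ip_Rv (k : Fin 3 → ℝ) (p : R4) : ip p (Rv k p) = 0 := by
  simp only [Rv_eq, ip]
  ring

theorem dr_Rv (k : Fin 3 → ℝ) (p : R4) : dr p (Rv k p) = 0 := by rw [dr_eq, ip_Rv, zero_div]

theorem rt_ip (ψ : ℝ) (u w : Fin 3 → ℝ) : ∑ i, rt ψ u i * rt ψ w i = ∑ i, u i * w i := by
  simp only [Fin.sum_univ_three, rt, Matrix.cons_val]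
  linear_combination (u 0 * w 0 + u 1 * w 1) * Real.cos_sq_add_sin_sq ψ

theorem tg_om (σ : Bool) (y : ℝ × ℝ) (b : Fin 2) : ∑ i, tg σ y b i * om σ y i = 0 := by
  have := (qq_pos y).ne'
  have s : sg σ ^ 2 = 1 := by rw [sq, sg_sq]
  fin_cases b <;> simp [Fin.sum_univ_three, tg, om] <;> field_simp <;> rw [s] <;> unfold qq <;> ring

theorem tg_tg (σ : Bool) (y : ℝ × ℝ) (b d : Fin 2) : ∑ i, tg σ y b i * tg σ y d i = g0 b d y := by
  have := (qq_pos y).ne'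
  have s : sg σ ^ 2 = 1 := by rw [sq, sg_sq]
  fin_cases b <;> fin_cases d <;> simp [Fin.sum_univ_three, tg, g0] <;> field_simp <;> rw [s] <;>
    unfold qq <;> ring

theorem kc_om (σ : Bool) (ψ : ℝ) (y : ℝ × ℝ) (b : Fin 2) :
    ∑ i, kc σ ψ y b i * rt ψ (om σ y) i = 0 := by
  fin_cases b <;> simp [kc, mul_assoc, ← Finset.mul_sum, rt_ip, tg_om]

theorem kc_kc (σ : Bool) (ψ : ℝ) (y : ℝ × ℝ) (b d : Fin 2) :
    ∑ i, kc σ ψ y b i * kc σ ψ y d i = g0 b d y := by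
  have e : ∀ u w : Fin 3 → ℝ, ∑ i, sg σ * u i * (sg σ * w i) = ∑ i, u i * w i := fun u w =>
    Finset.sum_congr rfl fun i _ => by linear_combination u i * w i * sg_sq σ
  fin_cases b <;> fin_cases d <;> simp [kc, e, rt_ip, tg_tg, g0]

theorem kc_two (σ : Bool) (ψ : ℝ) (y : ℝ × ℝ) (b : Fin 2) : kc σ ψ y b 2 = chi b y := by
  fin_cases b <;> simp [kc, rt, tg, chi]
  · linear_combination (-4 * y.2 / qq y ^ 2) * sg_sq σ
  · linear_combination (4 * y.1 / qq y ^ 2) * sg_sq σ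

theorem tg_full (σ : Bool) (y : ℝ × ℝ) (k i : Fin 3) : (tg σ y 0 k * tg σ y 0 i +
    tg σ y 1 k * tg σ y 1 i) * (qq y ^ 2 / 4) + om σ y k * om σ y i = if k = i then 1 else 0 := by
  have := (qq_pos y).ne'
  have s : sg σ ^ 2 = 1 := by rw [sq, sg_sq]
  fin_cases k <;> fin_cases i <;> simp [tg, om] <;> field_simp <;> (try rw [s]) <;> unfold qq <;>
    ring

theorem rt_full (ψ s : ℝ) {u v w : Fin 3 → ℝ}
    (h : ∀ k i, (u k * u i + v k * v i) * s + w k * w i = if k = i then 1 else 0) (k i : Fin 3) :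
    (rt ψ u k * rt ψ u i + rt ψ v k * rt ψ v i) * s + rt ψ w k * rt ψ w i =
      if k = i then 1 else 0 := by
  have t := Real.cos_sq_add_sin_sq ψ
  have a := h 0 0
  have b := h 0 1
  have d := h 1 1
  have e := h 0 2
  have f := h 1 2
  have g := h 2 2
  simp at a b d e f g
  fin_cases k <;> fin_cases i <;> simp [rt]
  · linear_combination cos ψ ^ 2 * a - 2 * cos ψ * sin ψ * b + sin ψ ^ 2 * d + t
  · linear_combination cos ψ * sin ψ * (a - d) + (cos ψ ^ 2 - sin ψ ^ 2) * b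
  · linear_combination cos ψ * e - sin ψ * f
  · linear_combination cos ψ * sin ψ * (a - d) + (cos ψ ^ 2 - sin ψ ^ 2) * b
  · linear_combination sin ψ ^ 2 * a + 2 * cos ψ * sin ψ * b + cos ψ ^ 2 * d + t
  · linear_combination sin ψ * e + cos ψ * f
  · linear_combination cos ψ * e - sin ψ * f
  · linear_combination sin ψ * e + cos ψ * f
  · linear_combination g

theorem kc_full (σ : Bool) (ψ : ℝ) (y : ℝ × ℝ) (k i : Fin 3) :
    (∑ b, kc σ ψ y b k * kc σ ψ y b i) * (qq y ^ 2 / 4) + rt ψ (om σ y) k * rt ψ (om σ y) i =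
      if k = i then 1 else 0 := by
  rw [← rt_full ψ _ (tg_full σ y) k i]
  simp only [Fin.sum_univ_two, kc, Matrix.cons_val]
  linear_combination (rt ψ (tg σ y 0) k * rt ψ (tg σ y 0) i +
    rt ψ (tg σ y 1) k * rt ψ (tg σ y 1) i) * (qq y ^ 2 / 4) * sg_sq σ

section chart
variable (h : |a| < M) (hr : rp M a < z.2.1)
include h hr

theorem r_pos : 0 < z.2.1 := ((hor h).2.1.trans_lt (hor h).2.2.1).trans hr

theorem rd_ne : rd (Th M a σ c z) ≠ 0 := by rw [rd_Th (r_pos h hr).le]; exact (r_pos h hr).ne'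

theorem Del_ne : Del M a (rd (Th M a σ c z)) ≠ 0 := by
  rw [rd_Th (r_pos h hr).le, (hor h).2.2.2.2.2.1]
  exact (mul_pos (sub_pos.2 hr) (sub_pos.2 ((hor h).2.2.1.trans hr))).ne'

theorem Th_e0 : fderiv ℝ (Th M a σ c) z e0 = -eT := by simp [Th_fd h hr, e0, yc]

theorem Th_e1 : fderiv ℝ (Th M a σ c) z e1 = Lo M a (Th M a σ c z) := by simp [Th_fd h hr, e1, yc]

theorem Th_ey (b : Fin 2) : fderiv ℝ (Th M a σ c) z (ey b) = Yv M a σ c b z := by
  fin_cases b <;> simp [Th_fd h hr, ey, yc, Yv, Rv, kz]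

theorem Th_Nv (β : Fin 3 → R4 → ℝ) {n : Fin 2 → R4 → ℝ} (e : ∀ b, n b z =
    ∑ i, β i (Th M a σ c z) * kz M a σ b i z * (qq z.2.2 ^ 2 / 4)) :
    fderiv ℝ (Th M a σ c) z (Nv n z) = Nf β (Th M a σ c z) := by
  have e1 : ∀ i, ∑ b, yc b (Nv n z) * kc σ (ps M a z.2.1) z.2.2 b i = β i (Th M a σ c z) -
      (∑ k, β k (Th M a σ c z) * rt (ps M a z.2.1) (om σ z.2.2) k) *
        rt (ps M a z.2.1) (om σ z.2.2) i := fun i => by
    have : ∑ k, β k (Th M a σ c z) * ((∑ b, kc σ (ps M a z.2.1) z.2.2 b k *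
        kc σ (ps M a z.2.1) z.2.2 b i) * (qq z.2.2 ^ 2 / 4) + rt (ps M a z.2.1) (om σ z.2.2) k *
          rt (ps M a z.2.1) (om σ z.2.2) i) = β i (Th M a σ c z) := by
      simp only [kc_full]
      simp
    simp only [Fin.sum_univ_two, Fin.sum_univ_three, yc, Nv, e, kz, Matrix.cons_val] at this ⊢
    linear_combination this
  rw [Th_fd h hr, Nf]
  simp only [e1]
  rw [← Rv, ← Rv, Rv_eq, Rv_eq]
  simp only [Th_eq]
  ext <;> simp [Nv, eT] <;> ring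

theorem Sg_Th : Sg a (rd (Th M a σ c z)) (xs (Th M a σ c z)) = Sz a z := by
  have := (r_pos h hr).ne'
  rw [Sg_eq, rd_Th (r_pos h hr).le, Th_eq, Sz, ct]
  simp [rt, om]
  left
  field_simp
  rw [sq (sg σ), sg_sq, one_mul]

omit h hr in
theorem ip_Y (b : Fin 2) : kz M a σ b 0 z * (Th M a σ c z).2.1 +
    kz M a σ b 1 z * (Th M a σ c z).2.2.1 + kz M a σ b 2 z * (Th M a σ c z).2.2.2 = 0 := by
  have := kc_om σ (ps M a z.2.1) z.2.2 b
  simp only [Fin.sum_univ_three] at this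
  simp only [Th_eq, kz]
  linear_combination z.2.1 * this

theorem dq_Y (b : Fin 2) : dq (Th M a σ c z) (Yv M a σ c b z) = chi b z.2.2 := by
  have k := rd_sq (Th M a σ c z)
  have n := rd_ne (σ := σ) (c := c) h hr
  rw [dq_eq, div_eq_iff (pow_ne_zero 2 n), k, ← kc_two σ (ps M a z.2.1), Yv, Rv_eq, ip]
  have := ip_Y (M := M) (a := a) (σ := σ) (c := c) (z := z) b
  simp only [kz] at this ⊢
  linear_combination (-(Th M a σ c z).2.2.2) * this

theorem rnd_Y (b d : Fin 2) : rnd (xs (Th M a σ c z)) (xs (Yv M a σ c b z)) (xs (Yv M a σ c d z)) =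
    g0 b d z.2.2 := by
  have k := rd_sq (Th M a σ c z)
  have n := rd_ne (σ := σ) (c := c) h hr
  rw [rnd_eq, Yv, Yv, ip_Rv, zero_div, zero_mul, sub_zero, div_eq_iff (pow_ne_zero 2 n), k,
    ← kc_kc σ (ps M a z.2.1), Rv_eq, Rv_eq, Fin.sum_univ_three]
  have := ip_Y (M := M) (a := a) (σ := σ) (c := c) (z := z) b
  simp only [ip, kz] at this ⊢
  linear_combination -(kc σ (ps M a z.2.1) z.2.2 d 0 * (Th M a σ c z).2.1 +
    kc σ (ps M a z.2.1) z.2.2 d 1 * (Th M a σ c z).2.2.1 +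
    kc σ (ps M a z.2.1) z.2.2 d 2 * (Th M a σ c z).2.2.2) * this

omit h hr in
theorem dr_Y (b : Fin 2) : dr (Th M a σ c z) (Yv M a σ c b z) = 0 := dr_Rv _ _

theorem gin_LT : gin M a (Th M a σ c z) (Lo M a (Th M a σ c z)) eT = -1 := by
  rw [gin_Lo (rd_ne h hr) (Del_ne h hr) (dr_T _)]
  simp [eT, dq_eq]

theorem gin_LY (b : Fin 2) :
    gin M a (Th M a σ c z) (Lo M a (Th M a σ c z)) (Yv M a σ c b z) = a * chi b z.2.2 := by
  rw [gin_Lo (rd_ne h hr) (Del_ne h hr) (dr_Y b), dq_Y h hr]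
  simp [Yv, Rv_eq]

theorem gin_TT : gin M a (Th M a σ c z) eT eT = -1 + mu M a z := by
  rw [gin_T (dr_T _), Sg_Th h hr, rd_Th (r_pos h hr).le]
  simp [eT, dq_eq, mu]

theorem gin_TY (b : Fin 2) :
    gin M a (Th M a σ c z) eT (Yv M a σ c b z) = -(mu M a z * (a * chi b z.2.2)) := by
  rw [gin_T (dr_Y b), dq_Y h hr, Sg_Th h hr, rd_Th (r_pos h hr).le]
  simp [Yv, Rv_eq, mu]

theorem gin_YY (b d : Fin 2) : gin M a (Th M a σ c z) (Yv M a σ c b z) (Yv M a σ c d z) =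
    Sz a z * g0 b d z.2.2 + a * chi b z.2.2 * (a * chi d z.2.2) * (1 + mu M a z) := by
  have e1 : ∀ b, (Yv M a σ c b z).1 = 0 := fun b => by rw [Yv, Rv_eq]
  rw [gin, kf, kf, rnd_Y h hr, dq_Y h hr, dq_Y h hr, Sg_Th h hr, rd_Th (r_pos h hr).le, dr_Y, dr_Y,
    e1, e1, mu]
  ring

theorem gin_LL : gin M a (Th M a σ c z) (Lo M a (Th M a σ c z)) (Lo M a (Th M a σ c z)) = 0 := by
  have n := rd_ne (σ := σ) (c := c) h hr
  have hD := Del_ne (σ := σ) (c := c) h hr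
  generalize Th M a σ c z = p at n hD
  have S0 : Sg a (rd p) (xs p) ≠ 0 := ((pow_pos ((rd_nonneg p).lt_of_ne' n) 2).trans_le
    (Sg_ge a p)).ne'
  have e1 : ip p (Lo M a p) = rd p := by
    have := dr_Lo (M := M) (a := a) n
    rwa [dr_eq, div_eq_one_iff_eq n] at this
  have e2 : p.2.2.2 ^ 2 / rd p ^ 2 * a ^ 2 = Sg a (rd p) (xs p) - rd p ^ 2 := by rw [Sg_eq]; ring
  have e3 : 2 * M * rd p = rd p ^ 2 + a ^ 2 - Del M a (rd p) := by unfold Del; ring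
  rw [gin, kf, rnd_eq, ip_Lo n, e1, dr_Lo n, dq_Lo n, Lo_fst, lo1, e3]
  generalize p.2.2.2 ^ 2 / rd p ^ 2 = z at *
  generalize Sg a (rd p) (xs p) = S at *
  generalize Del M a (rd p) = D at *
  have e4 : S = rd p ^ 2 + z * a ^ 2 := by linarith
  field_simp
  rw [e4]
  ring

theorem hK_11 : hK M a σ c z e1 e1 = 0 := by rw [hK, pb, Th_e1 h hr, gin_LL h hr]

theorem hK_10 : hK M a σ c z e1 e0 = 1 := by
  rw [hK, pb, Th_e1 h hr, Th_e0 h hr, ← neg_one_smul ℝ eT, (gin_bil M a _).smul_right, gin_LT h hr]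
  norm_num

theorem hK_1y (b : Fin 2) : hK M a σ c z e1 (ey b) = a * chi b z.2.2 := by
  rw [hK, pb, Th_e1 h hr, Th_ey h hr, gin_LY h hr]

theorem hK_00 : hK M a σ c z e0 e0 = -1 + mu M a z := by
  rw [hK, pb, Th_e0 h hr, ← neg_one_smul ℝ eT, (gin_bil M a _).smul_right,
    (gin_bil M a _).smul_left, gin_TT h hr]
  ring

theorem hK_0y (b : Fin 2) : hK M a σ c z e0 (ey b) = mu M a z * (a * chi b z.2.2) := by
  rw [hK, pb, Th_e0 h hr, Th_ey h hr, ← neg_one_smul ℝ eT, (gin_bil M a _).smul_left, gin_TY h hr]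
  ring

theorem hK_yy (b d : Fin 2) : hK M a σ c z (ey b) (ey d) =
    Sz a z * g0 b d z.2.2 + a * chi b z.2.2 * (a * chi d z.2.2) * (1 + mu M a z) := by
  rw [hK, pb, Th_ey h hr, Th_ey h hr, gin_YY h hr]

end chart

/-! ### Classes in the scale d3 -/

/-- The jets in the scale d3 are O(w). -/
def Oc {J : Type} (n : ℕ) (l : J → ℝ) (z : J → R4) (f : J → R4 → ℝ) (w : J → ℝ) : Prop :=
  Oj n 0 (fun j ξ => f j (d3 (l j) (z j) ξ)) w

def d3L (l r : ℝ) : R4 →L[ℝ] R4 := (l • ContinuousLinearMap.fst ℝ ℝ _).prod ((r • cR).prod cY)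
theorem d3L_ap (l r : ℝ) (v : R4) : d3L l r v = (l * v.1, r * v.2.1, v.2.2) := rfl
theorem d3_fd (l : ℝ) (z ξ : R4) : HasFDerivAt (d3 l z) (d3L l z.2.1) ξ :=
  (d3L l z.2.1).hasFDerivAt.const_add z
theorem d3_cd (l : ℝ) (z : R4) : ContDiff ℝ ∞ (d3 l z) := contDiff_const.add (d3L l z.2.1).contDiff
theorem d3_zero (l : ℝ) (z : R4) : d3 l z 0 = z := by simp [d3]

theorem d3_ev {l : ℝ} {P : R4 → Prop} (h : ∀ᶠ x in 𝓝 z, P x) : ∀ᶠ ξ in 𝓝 0, P (d3 l z ξ) :=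
  (d3_cd l z).continuous.continuousAt.eventually (by rwa [d3_zero])

theorem d3_sm {l : ℝ} {f : R4 → ℝ} (h : ContDiffAt ℝ ∞ (fun ξ => f (d3 l z ξ)) 0) (hl : l ≠ 0)
    (hr : z.2.1 ≠ 0) : ContDiffAt ℝ ∞ f z := by
  have e : ∀ x, d3 l z (d3L l⁻¹ z.2.1⁻¹ (x - z)) = x := fun x => by
    simp [d3, d3L_ap, mul_inv_cancel_left₀ hl, mul_inv_cancel_left₀ hr, Prod.ext_iff]
  have := P354YI.at_comp (G := fun ξ => f (d3 l z ξ)) (f := fun x => d3L l⁻¹ z.2.1⁻¹ (x - z))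
    (x := z) (by simpa using h)
    ((d3L _ _).contDiff.comp (contDiff_id.sub contDiff_const)).contDiffAt
  simpa only [e] using this

section family
variable {J : Type} {n : ℕ} {μ K : ℝ} {M a l w w' : J → ℝ} {z : J → R4} {f g : J → R4 → ℝ}

theorem Oc.congr (h : Oc n l z f w) (e : ∀ j, ∀ᶠ x in 𝓝 (z j), g j x = f j x) : Oc n l z g w :=
  Oj.congr h fun j => d3_ev (e j)

theorem Oc.mul (h : Oc n l z f w) (k : Oc n l z g w') :
    Oc n l z (fun j x => f j x * g j x) (w * w') := o_mul h k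
theorem Oc.mull (h : Oc n l z f w) (k : Oc n l z g 1) : Oc n l z (fun j x => f j x * g j x) w :=
  o_mull h k
theorem Oc.mulr (h : Oc n l z f 1) (k : Oc n l z g w) : Oc n l z (fun j x => f j x * g j x) w :=
  o_mulr h k
theorem Oc.add (h : Oc n l z f w) (k : Oc n l z g w) : Oc n l z (fun j x => f j x + g j x) w :=
  Oj.add h k
theorem Oc.neg (h : Oc n l z f w) : Oc n l z (fun j x => -f j x) w := Oj.neg h
theorem Oc.up (h : Oc n l z f w) (e : ∀ j, w j ≤ w' j) : Oc n l z f w' := Oj.mono h le_rfl e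
theorem Oc.wt (h : Oc n l z f w) {C : ℝ} (h0 : ∀ j, 0 ≤ w' j) (e : ∀ j, w j ≤ C * w' j) :
    Oc n l z f w' := Oj.wt h h0 e
theorem Oc.sum {ι : Type} [Fintype ι] {F : ι → J → R4 → ℝ} (h0 : ∀ j, 0 ≤ w j)
    (h : ∀ i, Oc n l z (F i) w) : Oc n l z (fun j x => ∑ i, F i j x) w :=
  Oj.sum Finset.univ h0 fun i _ => h i
theorem oc_cst (r : ℝ) : Oc n l z (fun _ _ => r) 1 := Oj.cst r
theorem oc_zero (h0 : ∀ j, 0 ≤ w j) : Oc n l z (fun _ _ => 0) w :=
  Oj.const h0 ⟨0, fun _ => by simp⟩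

variable (h : Adm μ K M a z) (hl : ∀ j, 1 ≤ l j)
include h hl

theorem Oc.sm (k : Oc n l z f w) (j : J) : ContDiffAt ℝ ∞ (f j) (z j) :=
  d3_sm (Oj.sm k j) (by linarith [hl j]) (h.r0 j).ne'

theorem Oc.c3 (k : Oc n l z f w) : ∃ C, 0 ≤ C ∧ ∀ j, C3 n (l j) (f j) (z j) (C * w j) :=
  (Oj.bd k).imp fun _ c => ⟨c.1, fun j => ⟨k.sm h hl j, c.2 j⟩⟩

theorem Oc.fd (k : Oc n l z f w) (j : J) : ∀ᶠ ξ in 𝓝 0, ∀ v,
    fderiv ℝ (fun ξ => f j (d3 (l j) (z j) ξ)) ξ v =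
      dv (d3L (l j) (z j).2.1 v) (f j) (d3 (l j) (z j) ξ) :=
  (d3_ev (P354YI.ev_dif (k.sm h hl j))).mono fun ξ e v =>
    DFunLike.congr_fun (e.hasFDerivAt.comp ξ (d3_fd _ _ ξ)).fderiv v

theorem Oc.dy (k : Oc (n + 1) l z f w) (b : Fin 2) : Oc n l z (fun j => dv (ey b) (f j)) w :=
  ((Oj.fd k).clm (ContinuousLinearMap.apply ℝ ℝ (ey b))).congr fun j => (k.fd h hl j).mono
    fun ξ e => by
      have : d3L (l j) (z j).2.1 (ey b) = ey b := by fin_cases b <;> simp [d3L_ap, ey]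
      simp only [ContinuousLinearMap.apply_apply, e, this]

theorem Oc.dr (k : Oc (n + 1) l z f w) : Oc n l z (fun j x => x.2.1 * dv e1 (f j) x) w :=
  (o_mulr Adm.o_x ((Oj.fd k).clm (ContinuousLinearMap.apply ℝ ℝ e1))).congr fun j =>
    (k.fd h hl j).mono fun ξ e => by
      have : d3L (l j) (z j).2.1 e1 = (z j).2.1 • e1 := by simp [d3L_ap, e1]
      simp only [ContinuousLinearMap.apply_apply, e, this, dv, map_smul, smul_eq_mul]
      simp [d3]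
      ring

omit hl

theorem oc_r : Oc n l z (fun _ x => x.2.1) fun j => (z j).2.1 := h.o_r
theorem oc_a : Oc n l z (fun j _ => a j) 1 := h.o_a
theorem oc_fy {F : ℝ × ℝ → ℝ} (hF : ContDiff ℝ ∞ F) : Oc n l z (fun _ x => F x.2.2) 1 := h.o_fy hF
theorem oc_kz (σ : Bool) (b : Fin 2) (i : Fin 3) : Oc n l z (fun j => kz (M j) (a j) σ b i) 1 :=
  h.o_kc σ b i

theorem oc_chi (b : Fin 2) : Oc n l z (fun j x => a j * chi b x.2.2) 1 := by
  refine (oc_a h).mull (oc_fy h (F := chi b) ?_)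
  have := qq_cd
  have := fun y => pow_ne_zero 2 (qq_pos y).ne'
  fin_cases b <;> unfold chi <;> simp only [Matrix.cons_val, Fin.zero_eta, Fin.mk_one] <;>
    fun_prop (disch := assumption)

theorem oc_g0 (b d : Fin 2) : Oc n l z (fun _ x => g0 b d x.2.2) 1 := by
  refine oc_fy h (F := g0 b d) ?_
  unfold g0
  split_ifs
  exacts [contDiff_const.div (qq_cd.pow 2) fun y => pow_ne_zero 2 (qq_pos y).ne', contDiff_const]

theorem oc_ct : Oc n l z (fun j x => a j ^ 2 * ct x.2.2) 1 :=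
  (((oc_a h).mull (oc_a h)).mull (oc_fy h (F := ct)
    ((ContDiff.div (by fun_prop) qq_cd fun y => (qq_pos y).ne').pow 2))).congr fun _ =>
      .of_forall fun _ => by ring

theorem oc_Sz : Oc n l z (fun j => Sz (a j)) fun j => (z j).2.1 ^ 2 :=
  ((((oc_r h).mul (oc_r h)).up fun j => (sq _).ge).add
    ((oc_ct h).up fun j => one_le_pow₀ (h.r1 j))).congr fun _ => .of_forall fun _ => by
      rw [Sz, sq]

theorem oc_mu : Oc n l z (fun j => mu (M j) (a j)) fun j => (z j).2.1⁻¹ := by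
  have i : Oc n l z (fun _ x => x.2.1⁻¹) fun j => (z j).2.1⁻¹ := h.o_ri
  have i1 := i.up h.ri1
  have k : Oc n l z (fun j x => (1 + a j ^ 2 * ct x.2.2 * (x.2.1⁻¹ * x.2.1⁻¹))⁻¹) 1 :=
    o_inv ((oc_cst 1).add ((oc_ct h).mull (i1.mull i1))) one_pos fun j =>
      le_add_of_nonneg_right (mul_nonneg (mul_nonneg (sq_nonneg _) (sq_nonneg _))
        (mul_self_nonneg _))
  have m : Oc n l z (fun j _ => M j) 1 := h.o_M
  refine (((oc_cst 2).mull m).mulr (i.mull k)).congr fun j => ?_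
  filter_upwards [continuous_snd.fst.continuousAt.eventually_ne (h.r0 j).ne'] with x e
  rw [mu, Sz, ← mul_inv, ← mul_inv, div_eq_mul_inv, mul_assoc, ← inv_inv x.2.1, ← mul_inv, inv_inv]
  congr 2
  field_simp

end family

end Vale.Agent.P354HF
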