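import Vale.Agent.P354MG.Asm
import Vale.Agent.P354RI.Core
import Vale.Agent.P354LC.Lcg

/-!
LAYH: the metric in the layer is that of the collar.
-/

open Set Filter Topology

noncomputable section

namespace Vale.Agent.P354HF

open Vale.Agent.P354n (R4)
open Vale.Agent.P354XG (E6)
open Vale.Agent.P354XD (pj)
open Vale.Agent.P354XE (Tw rd pb En)
open Vale.Agent.P354XO (Om Cht b4 cn_om)
open Vale.Agent.P354YO (sh rd_sh)
open Vale.Agent.P354XR (rd_pj)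
open Vale.Agent.P354CQ Vale.Agent.P354Z Vale.Agent.P354MG

variable {f : Fx} {v : Va} {q : Qn} {Rb : ℝ} {x : E6}

/-- The chart of the estimates is a chart on each part of the cone. -/
theorem ch_cht (o : f.Ok) (G : Ge f v q Rb) {D : Set (ℝ × ℝ)} (op : IsOpen D)
    (s : D ⊆ f.D q.c.Rs v.Lv) : Cht (f.P '' Om D) (f.ch v q) :=
  P354LC.cht_ph o.nu.sA o.nu.sB (G.su.cht.mono (cn_om op fun _ hp =>
    (G.su.num.1.trans_le G.su.num.2.1).trans (s hp).1) fun _ hy => ⟨s hy.1, hy.2⟩)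

theorem ch_P (x : E6) : f.ch v q (f.P x) = f.ac v q x :=
  congrArg (f.ac v q) (P354LC.hp_ph x)

theorem x0_p6 (G : Ge f v q Rb) (hx : x ∈ f.X0 v q) : x ∈ P6 :=
  ⟨(G.su.num.1.trans_le G.su.num.2.1).trans hx.1.1.1, hx.2⟩

/-- The points of the cone are points of the end below the lid. -/
theorem x0_pt (o : f.Ok) (G : Ge f v q Rb) (hx : x ∈ f.X0 v q) :
    f.z.Pt q.c.Rs Rb v.Lv (pj (f.P x)) := by
  obtain ⟨a1, a2, a3, -⟩ : 10 ≤ f.z.R1 ∧ 10 * f.z.R1 ≤ q.c.R2 ∧ 10 * q.c.R2 ≤ q.c.Rs ∧ _ :=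
    G.su.nm.rad
  have p := x0_p6 G hx
  obtain ⟨L, hL⟩ := P354TS.tz_ok f.z f.A f.B o.ok o.nu.th
  obtain ⟨c1, -, e⟩ := hL q.c.Rs (by linarith)
  have k := (o.ok.ok q.c.Rs (by linarith) Rb G.rb).1.1
  have p' : f.P x ∈ P6 := P354CS.s6_mem (x := ki _ x) p
  have r : rd (pj (f.P x)) = x.2.1 := rd_pj p'.1 p'.2
  have b : f.a.bt x.2.1 + 4 * f.z.M ^ 2 / x.2.1 - 1 < x.1 := hx.1.2
  have t : (pj (f.P x)).1 = x.1 - 4 * f.z.M ^ 2 / x.2.1 + f.A x.2.1 := rfl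
  obtain ⟨e1, e2⟩ := o.nu.en (pj (f.P x)).1 x.2.1 (by linarith)
  refine ⟨(k.En_iff f.z.θ _).2 ⟨show f.z.r1 < _ from r ▸ hx.1.1.1,
    le_trans (by linarith [o.ok.θ.1, o.ok.θ.2]) e1.le, ?_⟩, (e Rb x p).symm ▸ hx.1.1.2⟩
  rw [r]
  exact fun j => le_trans (le_add_of_nonneg_right (by norm_num)) (e2 j)

/-- The inverse of the chart is explicit at early times. -/
theorem b4_early (o : f.Ok) (G : Ge f v q Rb) (hx : x ∈ f.X0 v q) (t : x.1 < -(2 * f.z.R1)) :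
    f.ac v q x = ki (4 * f.z.M ^ 2) x ∧ ContinuousAt (b4 (f.U v q) (f.ch v q)) (pj (f.ac v q x)) ∧
      b4 (f.U v q) (f.ch v q) =ᶠ[𝓝 (pj (f.ac v q x))] sh f.A f.B := by
  have C : Cht (f.U v q) (f.ch v q) := ch_cht o G G.su.op0 fun _ k => k.1
  have C' := ch_cht o G (D := {p ∈ D0 (f.c q) (f.D q.c.Rs v.Lv) | p.1 < -(2 * f.z.R1)})
    (G.su.op0.inter (isOpen_lt continuous_fst continuous_const)) fun _ k => k.1.1
  have i : ∀ y : E6, y.1 < -(2 * f.z.R1) → f.ac v q y = ki (4 * f.z.M ^ 2) y := fun y k =>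
    congrArg (ki _) (G.su.early k.le)
  refine ⟨i x t, (C.dif_b4.sm _ ⟨_, ⟨_, ⟨x, hx, rfl⟩, ch_P x⟩, rfl⟩).continuousAt,
    mem_of_superset (C'.dif_b4.op.mem_nhds ⟨_, ⟨_, ⟨x, ⟨⟨hx.1, t⟩, hx.2⟩, rfl⟩, ch_P x⟩, rfl⟩) ?_⟩
  rintro _ ⟨_, ⟨_, ⟨y, hy, rfl⟩, rfl⟩, rfl⟩
  have m : y ∈ f.X0 v q := ⟨hy.1.1, hy.2⟩
  refine (C.b4_a ⟨y, m, rfl⟩).trans ?_
  rw [ch_P, i y hy.1.2]
  have p := x0_p6 G m
  exact P354CS.pj_s6 (x := ki _ y) p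

/-- **LAYH**. -/
theorem layh : LAYH := by
  intro f v q Rb k L m e1 e dd gc o G h x hx r b l y hy
  obtain ⟨a1, a2, a3, -⟩ : 10 ≤ f.z.R1 ∧ 10 * f.z.R1 ≤ q.c.R2 ∧ 10 * q.c.R2 ≤ q.c.Rs ∧ _ :=
    G.su.nm.rad
  have d0 : 0 < f.z.del := h.ok.del.1
  have d1 : f.z.del ≤ 1 / 10 := h.ok.del.2
  have R1 := o.nu.r1.2.2.2.2
  rw [o.nu.del] at l
  have l' : uu f.z.M x + x.2.1 ≤ x.2.1 / 10 := by nlinarith
  obtain ⟨y1, y2, -, -⟩ := (P354RI.seg_lay (by linarith) (by linarith) b l').2 y hy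
  have u := (P354RI.seg_uu hy).1
  obtain ⟨w, hw, rfl⟩ := hx hy
  have w0 : w ∈ f.X0 v q := ⟨hw.1.1, hw.2⟩
  have t : w.1 < -(2 * f.z.R1) := by
    have j := G.su.lb.glu_ge G.su.dk G.su.id (of2 hw)
    rw [← ac_uu] at j
    have j' : min w.1 f.ti ≤ uu f.z.M (f.ac v q w) := j
    have t0 : 0 ≤ f.ti := G.su.nm.t0
    rcases min_le_iff.1 j' with j | j <;> linarith
  obtain ⟨i, c, E⟩ := b4_early o G w0 t
  have p := x0_p6 G w0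
  have pt := x0_pt o G w0
  have s : pj (f.P w) = sh f.A f.B (pj (f.ac v q w)) := i ▸ P354CS.pj_s6 (x := ki _ w) p
  have r' : (f.ac v q w).2.1 = w.2.1 := by rw [i]; rfl
  have u' : uu f.z.M (f.ac v q w) = w.1 := by rw [i]; simp [uu, ki]
  have p' : f.P w ∈ P6 := P354CS.s6_mem (x := ki _ w) p
  have rr : rd (pj (f.P w)) = w.2.1 := rd_pj p'.1 p'.2
  rw [r'] at y1 y2
  have ps : (f.z.pm q.c.Rs Rb).psi (pj (f.P w)) < 0 := by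
    have t' : (pj (f.P w)).1 = w.1 - 4 * f.z.M ^ 2 / w.2.1 + f.A w.2.1 := rfl
    have j := o.nu.lay (pj (f.P w)).1 w.2.1 (by linarith) (by nlinarith)
    have j1 : P354NU.bl f.z w.2.1 = P354YT.tb f.z.M f.z.a w.2.1 :=
      (o.ok.ok q.c.Rs (by linarith) _ le_rfl).1.1.be_far
        (show f.z.R1 + 2 + 1 ≤ w.2.1 by linarith)
    have j2 := h.ok.be_ge (r := w.2.1) (P354YT.rp_lt h.ok.sub (show 10 * f.z.M ≤ _ by linarith))
    rw [h.ok.psi_lt (rr ▸ p.1), rr, zero_add]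
    exact j.trans_le (add_le_add (j1.trans_le j2) le_rfl)
  refine ⟨?_, s ▸ h.cg.sml _ ⟨pt.1, ps.le.trans zero_le_one⟩⟩
  have ev := h.ev pt ps
  rw [s, ← E.eq_of_nhds] at ev
  filter_upwards [c.eventually ev, E, E.fderiv (𝕜 := ℝ)] with z z1 z2 z3
  funext a a'
  simp only [Fx.gE, pb]
  rw [z1, z2, z3]

end Vale.Agent.P354HF
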